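import Vale.Agent.P263B15.Rows
import Vale.Agent.P263B67.Kill

/-! # P263B: the homology of a space with cells attached -/

namespace Vale.Agent.P263B56

open Topology Set Vale.Agent.P246.T Vale.Agent.P246.T.FM Vale.Agent.P263.AD.Freu
open Vale.Agent.P263B15 Vale.Agent.P178.H551

variable {A B Γ : Type} [TopologicalSpace A] [TopologicalSpace B] {n k m : ℕ} {i : C(A, B)}

/-- the inclusion is onto in homology, except in the degree of the cells -/
theorem onto {Φ : Γ → C(Dk n, B)} (hi : IsEmbedding i) (h : CellData n Γ univ (range i) Φ)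
    (hk : k ≠ n) (c : Ch k B) (hc : RedCyc k c) :
    ∃ c' : Ch k A, RedCyc k c' ∧ Hg c (push i k c') := by
  obtain ⟨b, -, hb⟩ := P263B67.hzero_cells h hk c (mem_univ_con _ _) (hc.rcyc _)
  obtain ⟨c', hc'⟩ := exists_push_range hi hb
  refine ⟨c', redCyc_of_push hi.injective ?_, b, by rw [hc', sub_sub_cancel]⟩
  rw [hc']
  exact hc.sub (redCyc_bd k b)

theorem rz_of_hg (h : ∀ c : Ch k B, RedCyc k c → Hg c 0) : RZ B k := fun c hc => (h c hc).exists_bd

theorem rz_keep {Φ : Γ → C(Dk n, B)} (hi : IsEmbedding i) (h : CellData n Γ univ (range i) Φ)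
    (hk : k ≠ n) (hA : RZ A k) : RZ B k :=
  rz_of_hg fun c hc => by
    obtain ⟨c', h1, h2⟩ := onto hi h hk c hc
    exact h2.trans ((hA.hg h1).push_zero i)

theorem h2_keep {Φ : Γ → C(Dk n, B)} (hi : IsEmbedding i) (h : CellData n Γ univ (range i) Φ)
    (hk : k ≠ n) (hA : H2 A k) : H2 B k := fun c d hc hd => by
  obtain ⟨c', h1, h2⟩ := onto hi h hk c hc
  obtain ⟨d', h3, h4⟩ := onto hi h hk d hd
  exact (hA c' d' h1 h3).imp (fun e => h2.trans (e.push_zero i)) (Or.imp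
    (fun e => h4.trans (e.push_zero i)) fun e => h2.trans ((e.push i).trans h4.symm))

/-- the cocycle `u` vanishes on the image of the boundary of the cube -/
def Q {p : ℕ} (u : Fn p A) (φ : C(bdk (p + 1), A)) : Prop :=
  ∀ c : Ch p (bdk (p + 1)), push (PR.inc (bdk (p + 1))) p c = bd p (zt (p + 1)) →
    u (push φ p c) = 0

theorem coc_hg {p : ℕ} {u : Fn p A} (hu : IsCoc u) {c c' : Ch p A} (h : Hg c c') : u c = u c' := by
  obtain ⟨b, hb⟩ := h
  rw [← sub_eq_zero, ← map_sub, ← hb, hu]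

/-- a map of the boundary of the cube which extends kills the boundary cycle -/
theorem hg_of_ex {p : ℕ} {φ : C(bdk (p + 1), A)} (h : Ex i φ) {c : Ch p (bdk (p + 1))}
    (hc : push (PR.inc (bdk (p + 1))) p c = bd p (zt (p + 1))) : Hg (push i p (push φ p c)) 0 := by
  obtain ⟨Ψ, hΨ⟩ := h
  have e : i.comp φ = Ψ.comp (PR.inc (bdk (p + 1))) := ContinuousMap.ext fun x => (hΨ x).symm
  rw [← push_comp, e, push_comp, hc, ← push_bd]
  exact hg_bd _

/-- every cycle in the first non-trivial degree comes from the boundary of the cube -/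
theorem exists_phi (k1 : KILL1) [SimplyConnectedSpace A] (hA : ∀ j ≤ m + 1, RZ A j)
    (c : Ch (m + 2) A) (hc : RedCyc (m + 2) c) :
    ∃ (φ : C(bdk (m + 3), A)) (c₀ : Ch (m + 2) (bdk (m + 3))),
      push (PR.inc (bdk (m + 3))) (m + 2) c₀ = bd (m + 2) (zt (m + 3)) ∧
        Hg c (push φ (m + 2) c₀) := by
  obtain ⟨a₀⟩ : Nonempty A := inferInstance
  obtain ⟨σ, hσ, b, hb⟩ := hur_surj (lft a₀ m fun k hk c hc => hA (k + 2) (by omega) c hc) c hc
  obtain ⟨φ, c₀, h1, h2⟩ := k1 A a₀ (m + 1) σ hσ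
  exact ⟨φ, c₀, h1, Hg.trans ⟨b, hb.symm⟩ h2.symm⟩

theorem rz_kill (k1 : KILL1) [SimplyConnectedSpace A] {Φ : Γ → C(Dk (m + 3), B)}
    (hi : IsEmbedding i) (h : CellData (m + 3) Γ univ (range i) Φ) (hA : ∀ j ≤ m + 1, RZ A j)
    (hall : ∀ φ : C(bdk (m + 3), A), Ex i φ) : RZ B (m + 2) :=
  rz_of_hg fun c hc => by
    obtain ⟨c', h1, h2⟩ := onto hi h (by omega) c hc
    obtain ⟨φ, c₀, h3, h4⟩ := exists_phi k1 hA c' h1
    exact h2.trans ((h4.push i).trans (hg_of_ex (hall φ) h3))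

theorem h2_kill (k1 : KILL1) [SimplyConnectedSpace A] {Φ : Γ → C(Dk (m + 3), B)}
    (hi : IsEmbedding i) (h : CellData (m + 3) Γ univ (range i) Φ) (hA : ∀ j ≤ m + 1, RZ A j)
    {u : Fn (m + 2) A} (hu : IsCoc u) (hall : ∀ φ : C(bdk (m + 3), A), Q u φ → Ex i φ) :
    H2 B (m + 2) := by
  have key : ∀ c : Ch (m + 2) A, RedCyc (m + 2) c → u c = 0 → Hg (push i (m + 2) c) 0 :=
    fun c hc h0 => by
      obtain ⟨φ, c₀, h3, h4⟩ := exists_phi k1 hA c hc
      refine (h4.push i).trans (hg_of_ex (hall φ fun c₁ h5 => ?_) h3)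
      rw [PR.push_injective (f := PR.inc (bdk (m + 2 + 1))) Subtype.val_injective _
        (h5.trans h3.symm), ← coc_hg hu h4, h0]
  intro c d hc hd
  obtain ⟨c', h1, h2⟩ := onto hi h (by omega) c hc
  obtain ⟨d', h3, h4⟩ := onto hi h (by omega) d hd
  have three : ∀ x y : ZMod 2, x = 0 ∨ y = 0 ∨ x - y = 0 := by decide
  refine (three (u c') (u d')).imp (fun e => h2.trans (key c' h1 e)) (Or.imp
    (fun e => h4.trans (key d' h3 e)) fun e => h2.trans (Hg.trans ?_ h4.symm))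
  obtain ⟨b, hb⟩ := key (c' - d') (h1.sub h3) (by rw [map_sub, e])
  exact ⟨b, by rw [hb, sub_zero, map_sub]⟩

/-- the hypothesis of `EXT2` -/
theorem q_ext {p : ℕ} (hi : IsEmbedding i) {Φ : Γ → C(Dk (p + 1), B)}
    {φ : Γ → C(bdk (p + 1), A)} (hΦ : ∀ (g : Γ) (x : bdk (p + 1)), Φ g x = i (φ g x))
    {u : Fn p A} (hQ : ∀ g, Q u (φ g)) (g : Γ) (c : Ch p A)
    (hc : push i p c = bd p (push (Φ g) (p + 1) (zt (p + 1))))
    (hz : ∃ c₀, push (PR.inc (bdk (p + 1))) p c₀ = bd p (zt (p + 1))) : u c = 0 := by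
  obtain ⟨c₀, h0⟩ := hz
  have e : (Φ g).comp (PR.inc (bdk (p + 1))) = i.comp (φ g) := ContinuousMap.ext fun x => hΦ g x
  rw [push_bd, ← h0, ← push_comp, e, push_comp] at hc
  rw [PR.push_injective hi.injective _ hc]
  exact hQ g c₀ h0

/-- the boundary of the fundamental chain lies in the boundary of the cube -/
theorem exists_bd_zt (k1 : KILL1) (p : ℕ) :
    ∃ c₀, push (PR.inc (bdk (p + 2))) (p + 1) c₀ = bd (p + 1) (zt (p + 2)) := by
  obtain ⟨_, c₀, h, -⟩ := k1 Unit () p (ContinuousMap.const _ ()) (isSm_const _ _)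
  exact ⟨c₀, h⟩

theorem rz_zero [PathConnectedSpace A] : RZ A 0 := fun c hc => PR.exists_bd_zero c hc

theorem rz_one [SimplyConnectedSpace A] : RZ A 1 := fun c hc => by
  obtain ⟨a₀⟩ : Nonempty A := inferInstance
  exact bound_of_lft (lft a₀ 0 fun k hk => absurd hk (by omega)) 0 le_rfl c hc

end Vale.Agent.P263B56
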